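import Vale.Agent.P078.Local.Def.Net

/-!
# Neighbourhoods, balls and levels of a net
-/

namespace Vale.Agent.P078.Local

open Finset

variable {ι : Type*} [Fintype ι] [DecidableEq ι] {D : ℕ}

namespace Net

variable (N : Net ι D) {A B : Finset ι} {k n : ℕ} {l u v : ι}

theorem nbhd_succ (A : Finset ι) (k : ℕ) :
    N.nbhd A (k + 1) = N.nbhd A k ∪ (N.nbhd A k).biUnion N.nb := rfl

theorem nbhd_zero (A : Finset ι) : N.nbhd A 0 = A := rfl

theorem nbhd_mono_left (hAB : A ⊆ B) : N.nbhd A k ⊆ N.nbhd B k := by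
  induction k with
  | zero => exact hAB
  | succ k ih => exact union_subset_union ih (biUnion_subset_biUnion_of_subset_left _ ih)

theorem nbhd_mono (hkn : k ≤ n) : N.nbhd A k ⊆ N.nbhd A n := by
  induction hkn with
  | refl => exact subset_rfl
  | step _ ih => exact ih.trans subset_union_left

theorem subset_nbhd : A ⊆ N.nbhd A k := N.nbhd_mono (Nat.zero_le k)

theorem mem_nbhd_succ (hl : l ∈ N.nbhd A k) (hu : u ∈ N.nb l) : u ∈ N.nbhd A (k + 1) :=
  mem_union_right _ (mem_biUnion.2 ⟨l, hl, hu⟩)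

theorem nbhd_nbhd (A : Finset ι) (k n : ℕ) : N.nbhd (N.nbhd A k) n = N.nbhd A (k + n) := by
  induction n with
  | zero => rfl
  | succ n ih => rw [nbhd_succ, ih]; rfl

theorem mem_nbhd_iff : u ∈ N.nbhd A k ↔ ∃ a ∈ A, u ∈ N.ball a k := by
  induction k generalizing u with
  | zero => simp [nbhd_zero, ball]
  | succ k ih =>
    simp only [ball, nbhd_succ, mem_union, mem_biUnion]
    constructor
    · rintro (h | ⟨v, hv, hu⟩)
      · obtain ⟨a, ha, h'⟩ := ih.1 h; exact ⟨a, ha, Or.inl h'⟩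
      · obtain ⟨a, ha, h'⟩ := ih.1 hv; exact ⟨a, ha, Or.inr ⟨v, h', hu⟩⟩
    · rintro ⟨a, ha, h | ⟨v, hv, hu⟩⟩
      · exact Or.inl (ih.2 ⟨a, ha, h⟩)
      · exact Or.inr ⟨v, ih.2 ⟨a, ha, hv⟩, hu⟩

theorem mem_ball_self (l : ι) (k : ℕ) : l ∈ N.ball l k := N.subset_nbhd (mem_singleton_self l)

theorem ball_mono (hkn : k ≤ n) : N.ball l k ⊆ N.ball l n := N.nbhd_mono hkn

theorem ball_subset_nbhd (hl : l ∈ A) : N.ball l k ⊆ N.nbhd A k :=
  N.nbhd_mono_left (singleton_subset_iff.2 hl)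

theorem nb_subset_ball_one : N.nb l ⊆ N.ball l 1 := fun _ hu =>
  N.mem_nbhd_succ (k := 0) (mem_singleton_self l) hu

theorem ball_trans {a b : ℕ} (hu : u ∈ N.ball l a) (hv : v ∈ N.ball u b) :
    v ∈ N.ball l (a + b) := by
  rw [ball, ← nbhd_nbhd]
  exact N.mem_nbhd_iff.2 ⟨u, hu, hv⟩

theorem ball_subset_ball {a b : ℕ} (hu : u ∈ N.ball l a) : N.ball u b ⊆ N.ball l (a + b) :=
  fun _ hv => N.ball_trans hu hv

theorem mem_ball_symm (h : u ∈ N.ball l k) : l ∈ N.ball u k := by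
  induction k generalizing u with
  | zero => simp only [ball, nbhd_zero, mem_singleton] at h ⊢; exact h.symm
  | succ k ih =>
    simp only [ball, nbhd_succ, mem_union, mem_biUnion] at h
    rcases h with h | ⟨v, hv, hu⟩
    · exact N.ball_mono (Nat.le_succ k) (ih h)
    · rw [Nat.add_comm k 1]
      exact N.ball_trans (N.nb_subset_ball_one (N.symm v u hu)) (ih hv)

theorem mem_ball_comm : u ∈ N.ball l k ↔ l ∈ N.ball u k := ⟨N.mem_ball_symm, N.mem_ball_symm⟩

theorem mem_nbhd_iff' : u ∈ N.nbhd A k ↔ ∃ a ∈ A, a ∈ N.ball u k := by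
  rw [mem_nbhd_iff]
  exact ⟨fun ⟨a, ha, h⟩ => ⟨a, ha, N.mem_ball_symm h⟩, fun ⟨a, ha, h⟩ => ⟨a, ha, N.mem_ball_symm h⟩⟩

theorem notMem_nbhd_iff : u ∉ N.nbhd A k ↔ Disjoint (N.ball u k) A := by
  rw [mem_nbhd_iff', Finset.disjoint_right]
  simp

theorem ball_subset_of_notMem_compl {S : Finset ι} (h : u ∉ N.nbhd (univ \ S) k) :
    N.ball u k ⊆ S := fun v hv => by
  by_contra hS
  exact Finset.disjoint_left.1 (N.notMem_nbhd_iff.1 h) hv (mem_sdiff.2 ⟨mem_univ v, hS⟩)

theorem nbhd_union (A B : Finset ι) (k : ℕ) : N.nbhd (A ∪ B) k = N.nbhd A k ∪ N.nbhd B k := by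
  induction k with
  | zero => rfl
  | succ k ih => rw [nbhd_succ, nbhd_succ, nbhd_succ, ih, union_biUnion]; ac_rfl

theorem nbhd_empty (k : ℕ) : N.nbhd ∅ k = ∅ := by
  induction k with
  | zero => rfl
  | succ k ih => rw [nbhd_succ, ih]; simp

theorem card_nbhd_le (A : Finset ι) (k : ℕ) : (N.nbhd A k).card ≤ A.card * (D + 1) ^ k := by
  induction k with
  | zero => simp [nbhd_zero]
  | succ k ih =>
    refine (card_union_le _ _).trans ?_
    have := card_biUnion_le_card_mul (N.nbhd A k) N.nb D fun l _ => N.card_le l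
    calc (N.nbhd A k).card + ((N.nbhd A k).biUnion N.nb).card
        ≤ (N.nbhd A k).card * (D + 1) := by rw [Nat.mul_add, Nat.mul_one, Nat.add_comm]; omega
      _ ≤ A.card * (D + 1) ^ k * (D + 1) := Nat.mul_le_mul_right _ ih
      _ = A.card * (D + 1) ^ (k + 1) := by rw [pow_succ]; ring

theorem card_ball_le (l : ι) (k : ℕ) : (N.ball l k).card ≤ (D + 1) ^ k := by
  simpa [ball] using N.card_nbhd_le {l} k

theorem card_ball_le_vol (l : ι) (k : ℕ) : ((N.ball l k).card : ℝ) ≤ ((D : ℝ) + 2) ^ k :=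
  calc ((N.ball l k).card : ℝ) ≤ (((D + 1) ^ k : ℕ) : ℝ) := by exact_mod_cast N.card_ball_le l k
    _ ≤ ((D : ℝ) + 2) ^ k := by
      push_cast; exact pow_le_pow_left₀ (by positivity) (by linarith) k

/-- Sites reached by a walk of the graph lie in the ball. -/
theorem mem_ball_of_walk {l v : ι} (p : N.graph.Walk l v) : v ∈ N.ball l p.length := by
  induction p with
  | nil => exact N.mem_ball_self _ _
  | cons h p ih =>
    rw [SimpleGraph.Walk.length_cons, Nat.add_comm]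
    exact N.ball_trans (N.nb_subset_ball_one h.2) ih

theorem mem_ball_of_walk_le {l v : ι} (p : N.graph.Walk l v) {R : ℕ} (h : p.length ≤ R) :
    v ∈ N.ball l R := N.ball_mono h (N.mem_ball_of_walk p)

omit [DecidableEq ι] in
theorem adj_of_supp {i j : ι} (hij : i ≠ j) (hx : N.x i j ≠ 0) : N.graph.Adj i j :=
  ⟨hij, N.supp i j hx⟩

/-! ### levels -/

theorem lev_le (A : Finset ι) (w : ℕ) (l : ι) : N.lev A w l ≤ w :=
  (card_filter_le _ _).trans (card_range w).le

theorem lev_le_iff {w : ℕ} (hk : k < w) : N.lev A w l ≤ k ↔ l ∈ N.nbhd A k := by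
  constructor
  · intro h
    by_contra hl
    have hsub : range (k + 1) ⊆ (range w).filter fun j => l ∉ N.nbhd A j := fun j hj => by
      have hj' : j ≤ k := Nat.lt_succ_iff.1 (mem_range.1 hj)
      exact mem_filter.2 ⟨mem_range.2 (by omega), fun h' => hl (N.nbhd_mono hj' h')⟩
    have := card_le_card hsub
    simp only [card_range] at this
    simp only [lev] at h
    omega
  · intro hl
    calc N.lev A w l ≤ (range k).card := card_le_card fun j hj => by
          obtain ⟨-, hj'⟩ := mem_filter.1 hj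
          exact mem_range.2 (lt_of_not_ge fun h => hj' (N.nbhd_mono h hl))
      _ = k := card_range k

theorem lev_eq_zero_iff {w : ℕ} (hw : 0 < w) : N.lev A w l = 0 ↔ l ∈ A := by
  rw [← Nat.le_zero, N.lev_le_iff hw, nbhd_zero]

theorem mem_nbhd_of_lev_lt {w : ℕ} (h : N.lev A w l < w) : l ∈ N.nbhd A (N.lev A w l) :=
  (N.lev_le_iff h).1 le_rfl

theorem lev_eq_iff {w : ℕ} : N.lev A w l = w ↔ ∀ j < w, l ∉ N.nbhd A j := by
  constructor
  · intro h j hj hl
    have := (N.lev_le_iff hj).2 hl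
    omega
  · intro h
    by_contra hne
    have hlt := lt_of_le_of_ne (N.lev_le A w l) hne
    exact h _ hlt (N.mem_nbhd_of_lev_lt hlt)

theorem lev_le_succ {w : ℕ} (hu : u ∈ N.nb l) : N.lev A w u ≤ N.lev A w l + 1 := by
  rcases lt_or_ge (N.lev A w l + 1) w with h | h
  · exact (N.lev_le_iff h).2 (N.mem_nbhd_succ (N.mem_nbhd_of_lev_lt (by omega)) hu)
  · exact (N.lev_le A w u).trans h

omit [DecidableEq ι] in
theorem xs_herm (s : Bool) : IsHerm (N.xs s) := fun a b => by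
  cases s <;> simp [xs, N.herm a b]

omit [DecidableEq ι] in
theorem xs_diag (s : Bool) (a : ι) : N.xs s a a = 0 := by
  cases s <;> simp [xs, N.diag a]

omit [DecidableEq ι] in
theorem xs_supp {s : Bool} {a b : ι} (h : N.xs s a b ≠ 0) : b ∈ N.nb a :=
  N.supp a b (by cases s <;> simpa [xs] using h)

omit [DecidableEq ι] in
theorem xs_adj {s : Bool} {i j : ι} (hij : i ≠ j) (h : N.xs s i j ≠ 0) : N.graph.Adj i j :=
  ⟨hij, N.xs_supp h⟩

end Net

end Vale.Agent.P078.Local
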