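import Vale.Agent.P078.Local.Graph.Basic
import Vale.Agent.P078.Local.Stable.Glue

/-!
# Gluing in a net

The localisation error only joins adjacent levels and has the same coefficient on each pair, so
it is `1 - cos (π / 2w)` times `x` minus its pinching by levels, of norm at most `π² / (4 w²)`.
-/

namespace Vale.Agent.P078.Local

open Finset
open scoped ComplexConjugate

variable {ι : Type*} [Fintype ι] [DecidableEq ι] {D : ℕ}

omit [DecidableEq ι] in
theorem Net.opLe_xs (N : Net ι D) (s : Bool) : OpLe univ (N.xs s) 1 := by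
  cases s
  · intro v
    have e : ∑ l, ∑ u, conj (v l) * N.xs false l u * v u =
        -∑ l, ∑ u, conj (v l) * N.x l u * v u := by
      simp [Net.xs, sum_neg_distrib]
    rw [e, Complex.neg_re, abs_neg]
    exact N.opLe v
  · simpa [Net.xs] using N.opLe

omit [Fintype ι] in
theorem OpLe.mono {S T : Finset ι} {x : ι → ι → ℂ} {a : ℝ} (h : OpLe T x a) (hST : S ⊆ T) :
    OpLe S x a := by
  intro v
  set v' : ι → ℂ := fun i => if i ∈ S then v i else 0
  have := h v'
  have e1 : (∑ l ∈ T, ∑ u ∈ T, conj (v' l) * x l u * v' u) =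
      ∑ l ∈ S, ∑ u ∈ S, conj (v l) * x l u * v u := by
    rw [← sum_subset hST fun l _ hl => by simp [v', hl]]
    refine sum_congr rfl fun l hl => ?_
    rw [← sum_subset hST fun u _ hu => by simp [v', hu]]
    exact sum_congr rfl fun u hu => by simp [v', hl, hu]
  have e2 : ∑ l ∈ T, Complex.normSq (v' l) = ∑ l ∈ S, Complex.normSq (v l) := by
    rw [← sum_subset hST fun l _ hl => by simp [v', hl]]
    exact sum_congr rfl fun l hl => by simp [v', hl]
  rwa [e1, e2] at this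

omit [Fintype ι] [DecidableEq ι] in
/-- `x` minus its pinching by levels has at most twice the norm of `x`. -/
theorem quad_offLevel {T : Finset ι} {x : ι → ι → ℂ} {a : ℝ} (hx : OpLe T x a) (d : ι → ℕ)
    {w : ℕ} (hd : ∀ l ∈ T, d l ≤ w) (v : ι → ℂ) :
    |(∑ l ∈ T, ∑ u ∈ T, conj (v l) * (if d l = d u then 0 else x l u) * v u).re| ≤
      2 * a * ∑ l ∈ T, Complex.normSq (v l) := by
  set p : ℕ → ι → ℂ := fun n l => if d l = n then v l else 0
  have hpin : ∑ n ∈ range (w + 1), ∑ l ∈ T, ∑ u ∈ T, conj (p n l) * x l u * p n u =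
      ∑ l ∈ T, ∑ u ∈ T, conj (v l) * (if d l = d u then x l u else 0) * v u := by
    rw [sum_comm]
    refine sum_congr rfl fun l hl => ?_
    rw [sum_eq_single (d l) (fun n _ hn => by simp [p, Ne.symm hn])
      (fun h => absurd (mem_range.2 (Nat.lt_succ_of_le (hd l hl))) h)]
    refine sum_congr rfl fun u _ => ?_
    by_cases h : d l = d u
    · simp [p, h]
    · simp [p, h, Ne.symm h]
  have hsq : ∑ n ∈ range (w + 1), ∑ l ∈ T, Complex.normSq (p n l) =
      ∑ l ∈ T, Complex.normSq (v l) := by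
    rw [sum_comm]
    refine sum_congr rfl fun l hl => ?_
    rw [sum_eq_single (d l) (fun n _ hn => by simp [p, Ne.symm hn])
      (fun h => absurd (mem_range.2 (Nat.lt_succ_of_le (hd l hl))) h)]
    simp [p]
  have hsplit : ∑ l ∈ T, ∑ u ∈ T, conj (v l) * (if d l = d u then 0 else x l u) * v u =
      (∑ l ∈ T, ∑ u ∈ T, conj (v l) * x l u * v u) -
        ∑ n ∈ range (w + 1), ∑ l ∈ T, ∑ u ∈ T, conj (p n l) * x l u * p n u := by
    rw [hpin, ← sum_sub_distrib]
    refine sum_congr rfl fun l _ => ?_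
    rw [← sum_sub_distrib]
    exact sum_congr rfl fun u _ => by split_ifs <;> ring
  rw [hsplit, Complex.sub_re, Complex.re_sum (range (w + 1))]
  refine (abs_sub _ _).trans ?_
  have h2 : |∑ n ∈ range (w + 1), (∑ l ∈ T, ∑ u ∈ T, conj (p n l) * x l u * p n u).re| ≤
      a * ∑ l ∈ T, Complex.normSq (v l) := by
    refine (abs_sum_le_sum_abs _ _).trans ?_
    rw [← hsq, mul_sum]
    exact sum_le_sum fun n _ => hx (p n)
  linarith [hx v]

/-- Two validities glue at the cost `3 / w ^ 2`. -/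
theorem glue_net {r : ℕ} (N : Net ι D) (s : Bool) {T T1 T2 A : Finset ι} {h : ι → Fin r → ℝ}
    {Z1 Z2 : ι → ℝ} {b : ℝ} {w : ℕ} (hh : IsLaw T h) (hw : 0 < w) (h1T : T1 ⊆ T) (h2T : T2 ⊆ T)
    (hs1 : ∀ l ∈ T, N.lev A w l < w → l ∈ T1) (hs2 : ∀ l ∈ T, 0 < N.lev A w l → l ∈ T2)
    (hv1 : Valid T1 h Z1 (N.xs s)) (hv2 : Valid T2 h Z2 (N.xs s))
    (hb1 : ∀ l ∈ T1, Z1 l ≤ b) (hb2 : ∀ l ∈ T2, Z2 l ≤ b) :
    Valid T h (fun _ => b + 3 / (w : ℝ) ^ 2) (N.xs s) := by
  set x := N.xs s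
  set c₁ : ι → ℝ := fun l => Real.cos (Real.pi / (2 * w) * N.lev A w l) with hc₁
  set c₂ : ι → ℝ := fun l => Real.sin (Real.pi / (2 * w) * N.lev A w l) with hc₂
  set κ : ℝ := 1 - Real.cos (Real.pi / (2 * w)) with hκ
  have hw' : (0 : ℝ) < w := by exact_mod_cast hw
  have hsupp1 : ∀ l ∈ T, c₁ l ≠ 0 → l ∈ T1 := fun l hl hne =>
    hs1 l hl (lt_of_le_of_ne (N.lev_le A w l) fun e => hne (by
      rw [hc₁]; simp only [e]; rw [show Real.pi / (2 * w) * w = Real.pi / 2 by field_simp]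
      exact Real.cos_pi_div_two))
  have hsupp2 : ∀ l ∈ T, c₂ l ≠ 0 → l ∈ T2 := fun l hl hne =>
    hs2 l hl (Nat.pos_of_ne_zero fun e => hne (by simp [hc₂, e]))
  have hE : ∀ l u, x l u - conjBy c₁ x l u - conjBy c₂ x l u =
      (κ : ℂ) * (if N.lev A w l = N.lev A w u then 0 else x l u) := by
    intro l u
    have e : x l u - conjBy c₁ x l u - conjBy c₂ x l u =
        ((1 - Real.cos (Real.pi / (2 * w) * N.lev A w l - Real.pi / (2 * w) * N.lev A w u) : ℝ) : ℂ)
          * x l u := by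
      simp only [conjBy, hc₁, hc₂, Real.cos_sub]; push_cast; ring
    rw [e]
    by_cases hlev : N.lev A w l = N.lev A w u
    · simp [hlev]
    rw [if_neg hlev]
    rcases eq_or_ne (x l u) 0 with h0 | h0
    · simp [h0]
    have hnb : u ∈ N.nb l := N.xs_supp h0
    have h1 := N.lev_le_succ (A := A) (w := w) hnb
    have h2 := N.lev_le_succ (A := A) (w := w) (N.symm l u hnb)
    congr 2
    rcases (show N.lev A w l = N.lev A w u + 1 ∨ N.lev A w u = N.lev A w l + 1 by omega) with e | e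
    · rw [hκ, e]; push_cast; ring_nf
    · rw [hκ, e, ← Real.cos_neg (Real.pi / (2 * w))]; push_cast; ring_nf
  have hκ0 : 0 ≤ κ := by rw [hκ]; linarith [Real.cos_le_one (Real.pi / (2 * w))]
  have hκ1 : 2 * κ < 3 / (w : ℝ) ^ 2 := by
    have h1 := Real.one_sub_sq_div_two_le_cos (x := Real.pi / (2 * w))
    have e : (Real.pi / (2 * w)) ^ 2 = Real.pi ^ 2 / 4 / (w : ℝ) ^ 2 := by ring
    have h2 : Real.pi ^ 2 / 4 / (w : ℝ) ^ 2 < 3 / (w : ℝ) ^ 2 := by
      have := Real.pi_lt_d2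
      have := Real.pi_pos
      exact div_lt_div_of_pos_right (by nlinarith) (by positivity)
    rw [e] at h1
    rw [hκ]; linarith
  set σ := 3 / (w : ℝ) ^ 2 - 2 * κ with hσ
  have hquad : ∀ v : T → ℂ, (∑ a : T, ∑ c : T, conj (v a)
      * (x a c - conjBy c₁ x a c - conjBy c₂ x a c) * v c).re
      ≤ 2 * κ * ∑ a : T, Complex.normSq (v a) := by
    intro v
    set v' : ι → ℂ := fun i => if hi : i ∈ T then v ⟨i, hi⟩ else 0
    have hv' : ∀ a : T, v a = v' a := fun a => by simp [v']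
    have hq := quad_offLevel ((N.opLe_xs s).mono (subset_univ T)) (N.lev A w)
      (fun l _ => N.lev_le A w l) v'
    have e1 : ∑ a : T, ∑ c : T, conj (v a) * (x a c - conjBy c₁ x a c - conjBy c₂ x a c) * v c =
        (κ : ℂ) * ∑ l ∈ T, ∑ u ∈ T,
          conj (v' l) * (if N.lev A w l = N.lev A w u then 0 else x l u) * v' u := by
      rw [mul_sum, ← sum_coe_sort T]
      refine sum_congr rfl fun a _ => ?_
      rw [mul_sum, ← sum_coe_sort T]
      refine sum_congr rfl fun c _ => ?_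
      rw [hE, hv', hv']; ring
    rw [e1, Complex.re_ofReal_mul, show ∑ a : T, Complex.normSq (v a) =
      ∑ l ∈ T, Complex.normSq (v' l) by simp only [hv']; exact sum_coe_sort T fun l => Complex.normSq (v' l)]
    have h3 := mul_le_mul_of_nonneg_left ((le_abs_self _).trans hq) hκ0
    linarith
  have := valid_glue (χ₁ := c₁) (χ₂ := c₂) hh (hh.mono h1T) (hh.mono h2T) hv1 hv2 hsupp1 hsupp2
    (e := 2 * κ) hquad (σ := σ) (by rw [hσ]; linarith)
  refine this.mono hh fun l hl => ?_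
  have hsc : c₁ l ^ 2 + c₂ l ^ 2 = 1 := Real.cos_sq_add_sin_sq _
  have a1 : c₁ l ^ 2 * Z1 l ≤ c₁ l ^ 2 * b := by
    rcases eq_or_ne (c₁ l) 0 with e | e
    · simp [e]
    · exact mul_le_mul_of_nonneg_left (hb1 l (hsupp1 l hl e)) (sq_nonneg _)
  have a2 : c₂ l ^ 2 * Z2 l ≤ c₂ l ^ 2 * b := by
    rcases eq_or_ne (c₂ l) 0 with e | e
    · simp [e]
    · exact mul_le_mul_of_nonneg_left (hb2 l (hsupp2 l hl e)) (sq_nonneg _)
  have a3 : c₁ l ^ 2 * b + c₂ l ^ 2 * b = b := by rw [← add_mul, hsc, one_mul]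
  rw [hσ]; linarith

end Vale.Agent.P078.Local
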